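import Vale.Agent.P354c.Defs

open scoped ContDiff
open MeasureTheory Set Filter Topology

namespace Vale.Agent.P354c

/-- The spacetime M with the opposite time orientation. -/
abbrev rev (M : Spc) : Spc := { M with X := fun e y => -M.X e y }

/-- M is inextendible: every isometric embedding of M onto an open part of a connected spacetime
N, whose metric has the regularity Reg, is onto. -/
def IsInext (Reg : (R4 → ℝ) → Set R4 → Prop) (M : Spc) : Prop :=
  ∀ (N : Spc) (ι : M.pt → N.pt), IsSpacetime Reg N → ConnectedSpace N.pt → IsOpenEmbedding ι →
    IsIsom ι → range ι = univ

end Vale.Agent.P354c
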