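import Vale.Agent.P354.H251.Two
import Vale.Agent.P354.R2.H529.Defs

set_option linter.unusedSectionVars false

open scoped ContDiff
open MeasureTheory Set Filter Topology

namespace Vale.Agent.P354c

variable {M N : Spc} {Reg : (R4 → ℝ) → Set R4 → Prop}

lemma rev_spacetime (h : IsSpacetime Reg M) : IsSpacetime Reg (rev M) :=
  isSpacetime_dn (P354v.rv_spacetime h.up) fun _ _ h => h

lemma rev_isom {ι : M.pt → N.pt} (hN : IsSpacetime Reg N) (hc : Continuous ι) (h : IsIsom ι) :
    IsIsom (M := rev M) (N := rev N) ι :=
  isIsom_dn (M := P354v.rv (Up M)) (N := P354v.rv (Up N)) hc (P354v.rv_isom hN.up h.up)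

/-- Two-sided inextendibility. -/
theorem inext2 (hM : IsSpacetime IsSmooth M) (hne : Nonempty M.pt)
    (h1 : AllEnd M) (h2 : AllEnd (rev M)) : IsInext IsLip M := by
  intro N ι hN hc hemb hI
  by_contra hnu
  obtain ⟨c, hc1, hc2, hc3⟩ := P354v.bdry (N := Up N) (fun f D h => h.continuousOn) hN.up hc
    hemb.isOpen_range (range_nonempty ι) hnu
  rcases hc3 with hc3 | hc3
  · exact (inext0 M hM).2 h1 N ι c
      { spacetime := hN
        embedding := hemb
        isometry := hI
        curve := isFutureCurve_dn (M := Up N) hc3
        curve_mem := hc1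
        curve_end := hc2 }
  · exact (inext0 (rev M) (rev_spacetime hM)).2 h2 (rev N) ι c
      { spacetime := rev_spacetime hN
        embedding := hemb
        isometry := rev_isom hN hemb.continuous hI
        curve := isFutureCurve_dn (M := P354v.rv (Up N)) hc3
        curve_mem := hc1
        curve_end := hc2 }

end Vale.Agent.P354c
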